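import Vale.Agent.P231.S3L.Van
import Vale.Agent.P231.S3G.Gge
import Vale.Agent.P231.H584.Kap
import Vale.Agent.P231.Co.Gys
import Vale.Agent.P231.WA.Inv

/-!
# P231, stage 3, S3-MU: the primitive of the doubled standard form on the space `Y`

A family over `Y` which starts with the pull back of a family over `X` and ends with a family which
is classified by a universal family `Λ` with exact natural form.
-/

set_option linter.unusedSectionVars false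
set_option linter.unusedVariables false

open Set Module Filter Topology
open scoped ContDiff

namespace Vale.Agent.P231.S3MU

open Fm W H584 S3L
open Fm.Form (IsDeg part isDeg_part part_add part_smul part_succ_d part_pull)

section Deg

variable {X : Type*} {D : Dif X} {Φ : X × ℝ → X} (hΦ : (D.prod (Dif.lin ℝ)).Map D Φ)

theorem deg_Pm {k : ℕ} {w : Form (D.prod (Dif.lin ℝ))} (hw : IsDeg (k + 1) w) :
    IsDeg k (H584.Pm w) := IsDeg.K (IsDeg.pull hw _ _)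

theorem deg_lam (T : ℝ) {k : ℕ} {G : Form D} (hG : IsDeg (k + 1) G) :
    IsDeg k (lam Φ hΦ T G) := by
  rw [lam_def]
  refine IsDeg.neg (IsDeg.smul _ (Co.isDeg_KT T ?_))
  exact Co.degc (IsDeg.mul WA.isDeg_dt (deg_Pm (IsDeg.pull hG Φ hΦ))) (Nat.add_comm 1 k)

theorem deg_Gh (T : ℝ) {k : ℕ} {G : Form D} (hG : IsDeg (k + 1) G) :
    IsDeg (k + 1) (Gh Φ hΦ T G) := by
  rw [Gh_def]
  exact IsDeg.sub hG (IsDeg.d (deg_lam hΦ T hG))

theorem deg_y0 (T : ℝ) {G : Form D} (hG : IsDeg 8 G) : IsDeg 23 (y0 2 Φ hΦ T G) := by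
  have h1 := deg_lam hΦ T hG
  have h2 := deg_Gh hΦ T hG
  rw [y0_def]
  refine IsDeg.neg (Co.degc (IsDeg.mul (k := 16) h1 ?_) rfl)
  rw [hh_succ, hh_succ, hh_zero, mul_one]
  refine IsDeg.add ?_ ?_
  · refine Co.degc (IsDeg.mul (k := 8) hG (IsDeg.add hG ?_)) rfl
    exact Co.degc (IsDeg.pow h2 1) rfl
  · exact Co.degc (IsDeg.pow h2 2) rfl

/-- the natural form has degree 29 -/
theorem deg_tau (A C T : ℝ) {α G : Form D} (hα : IsDeg 1 α) (hG : IsDeg 8 G) :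
    IsDeg 29 (tau A C Φ hΦ T α G) := by
  have h1 : IsDeg 7 (xp Φ hΦ T G) := isDeg_J hΦ T hG
  have h2 : IsDeg 22 (yp 2 Φ hΦ T G) := isDeg_J hΦ T (deg_y0 hΦ T hG)
  have h3 : IsDeg 8 (xc Φ hΦ T α G) :=
    isDeg_J hΦ T (Co.degc (IsDeg.mul (IsDeg.smul _ hα) hG) rfl)
  have h4 : IsDeg 2 (T⁻¹ • α.d) := IsDeg.smul _ (IsDeg.d hα)
  rw [tau_def]
  refine IsDeg.add ?_ ?_
  · rw [t2_def]
    exact Co.degc (IsDeg.mul h1 h2) rfl
  · rw [plin_def]
    refine Co.degc (IsDeg.mul (j := 22) (IsDeg.add (IsDeg.smul _ ?_) (IsDeg.smul _ ?_)) h1) rfl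
    · exact Co.degc (IsDeg.mul (IsDeg.pow h4 7) h3) rfl
    · exact Co.degc (IsDeg.pow h4 11) rfl

end Deg

section Van

variable {X Y : Type*} {D : Dif X} {D' : Dif Y} {T : ℝ} {Φ : X × ℝ → X} (h : IsFlow D T Φ)

/-- the transgression between two connections vanishes on the constant loops -/
theorem van_tauG (A C : ℝ) {f : X → Y} (hf : D.Map D' f) (F : Form D') (α β : Form D) {Z : Set X}
    (hinv : ∀ x ∈ Z, ∀ t, Φ (x, t) ∈ Z) (hZ : ∀ x ∈ Z, ∀ t, f (Φ (x, t)) = f x) :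
    Van Z (tauG A C Φ h.map T α β (Form.pull f hf F)) := by
  rw [van_iff]
  let φ : Z × ℝ → Z := fun p => ⟨Φ ((p.1 : X), p.2), hinv p.1 p.1.2 p.2⟩
  have hφ : ((D.sub Z).prod (Dif.lin ℝ)).Map (D.sub Z) φ := fun {E} _ _ _ {u x} hu =>
    h.map (u := fun y => (((u y).1 : X), (u y).2)) ⟨hu.1, hu.2⟩
  have h1 := pull_tauG (φ := φ) (φ' := Φ) hφ h.map (Dif.map_sub (D := D) (S := Z))
    (fun x t => rfl) A C T α β (Form.pull f hf F)
  rw [h1]
  refine tauG_of_basic A C (hΦ := hφ) T _ _ ?_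
  have h2 : (D.sub Z).Map D' fun z : Z => f z := fun hu => hf hu
  have h3 : Form.pull (Subtype.val : Z → X) Dif.map_sub (Form.pull f hf F) =
      Form.pull (fun z : Z => f z) h2 F :=
    pull_pull (Dif.map_sub (D := D) (S := Z)) hf h2 (fun _ => rfl) F
  rw [h3]
  exact basic_pull h2 (fun z t => hZ z z.2 t) F

theorem Van.part {Z : Set X} {w : Form D} (hw : Van Z w) (k : ℕ) : Van Z (part k w) :=
  fun {E} _ _ _ {u x} hu hZ => by
    rw [Form.part_val, hw hu hZ, map_zero]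

end Van

section Main

variable {X Y Λ M : Type*} {dX : Dif X} {dY : Dif Y} {dΛ : Dif Λ} {dM : Dif M} {T : ℝ}
  {ΦX : X × ℝ → X} (hX : IsFlow dX T ΦX) {αX : Form dX}
  (hαX : Form.pull ΦX hX.map αX = pr αX + dt) (hαXo : αX.sg = -αX)
  {CX : X → M} (hCX : dX.Map dM CX)
  {ΦY : Y × ℝ → Y} (hY : IsFlow dY T ΦY) {f : Y → X} (hf : dY.Map dX f)
  (hfe : ∀ y t, f (ΦY (y, t)) = ΦX (f y, t))
  {ΦΛ : Λ × ℝ → Λ} (hΛ : IsFlow dΛ 1 ΦΛ) {αΛ : Form dΛ}
  (hαΛ : Form.pull ΦΛ hΛ.map αΛ = pr αΛ + dt) (hαΛo : αΛ.sg = -αΛ)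
  {CΛ : Λ → M} (hCΛ : dΛ.Map dM CΛ) {c : Y → Λ} (hc : dY.Map dΛ c)
  (hce : ∀ y t, c (ΦY (y, T * t)) = ΦΛ (c y, t))
  {H : Y × ℝ → M} (hH : (dY.prod (Dif.lin ℝ)).Map dM H)
  (H0 : ∀ y, H (y, 0) = CX (f y)) (H1 : ∀ y, H (y, 1) = CΛ (c y))
  {F : Form dM} (hF : F.d = 0) (hFe : F.sg = F) (hFn : F ^ (2 + 1) = 0) {A0 C0 : ℝ}
  {lamΛ : Form dΛ} (hlb : Basic ΦΛ hΛ.map lamΛ)
  (hld : lamΛ.d = tau A0 C0 ΦΛ hΛ.map 1 αΛ (Form.pull CΛ hCΛ F))
  (hlv : Van {b | ∀ t, CΛ (ΦΛ (b, t)) = CΛ b} lamΛ)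
  {Z : Set Y} (hZi : ∀ y ∈ Z, ∀ t, ΦY (y, t) ∈ Z)
  (hZ : ∀ y ∈ Z, ∀ t s, H (ΦY (y, t), s) = H (y, s))

include hX hαX hαXo hY hfe hΛ hαΛ hαΛo hc hce hH H0 H1 hF hFe hFn hlb hld hlv hZi hZ in
/-- **S3-MU, abstract form** -/
theorem exists_mu (hT : T ≠ 0) : ∃ μ : Form dY, Basic ΦY hY.map μ ∧
    μ.d = Form.pull f hf (tau A0 C0 ΦX hX.map T αX (Form.pull CX hCX F)) ∧ Van Z μ := by
  have h1c : (dY.prod (Dif.lin ℝ)).Map dY (scl T ΦY) := map_scl T hY.map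
  have hcT : T * 1 = T := mul_one T
  have hYs : IsFlow dY 1 (scl T ΦY) := isFlow_scl hY hcT
  -- the pull back of the universal form
  have e1 : Form.pull c hc (tau A0 C0 ΦΛ hΛ.map 1 αΛ (Form.pull CΛ hCΛ F)) =
      tau A0 C0 (scl T ΦY) hYs.map 1 (Form.pull c hc αΛ)
        (Form.pull c hc (Form.pull CΛ hCΛ F)) :=
    pull_tau (φ := scl T ΦY) (φ' := ΦΛ) hYs.map hΛ.map hc (fun y t => hce y t) A0 C0 1 αΛ
      (Form.pull CΛ hCΛ F)
  set α1 : Form dY := T • Form.pull c hc αΛ with hα1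
  have e2 : Form.pull c hc αΛ = T⁻¹ • α1 := by
    rw [hα1, smul_smul, inv_mul_cancel₀ hT, one_smul]
  have hC1 : dY.Map dM (fun y => H (y, 1)) := map_at hH 1
  have e3 : Form.pull c hc (Form.pull CΛ hCΛ F) = Form.pull (fun y => H (y, 1)) hC1 F :=
    pull_pull hc hCΛ hC1 (fun y => (H1 y).symm) F
  have e4 : Form.pull c hc (tau A0 C0 ΦΛ hΛ.map 1 αΛ (Form.pull CΛ hCΛ F)) =
      tau A0 C0 ΦY hY.map T α1 (Form.pull (fun y => H (y, 1)) hC1 F) := by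
    rw [e1, e3, e2]
    exact tau_scl hT hcT hY.map A0 C0 α1 _
  have hα1c : Form.pull ΦY hY.map α1 = pr α1 + dt := by
    have k1 : Form.pull (scl T ΦY) hYs.map (Form.pull c hc αΛ) =
        pr (Form.pull c hc αΛ) + dt := by
      have k2 := flow_nat hYs.map hΛ.map hc (fun y t => hce y t) αΛ
      rw [← k2, hαΛ]
      refine (pull_add (map_cyl hc) _ _).trans ?_
      rw [pull_pr hc, pull_dt hc]
    have k3 := contact_scl (c := T⁻¹) (inv_ne_zero hT) hYs.map k1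
    rw [_root_.inv_inv] at k3
    have k4 : scl T⁻¹ (scl T ΦY) = ΦY := scl_scl (mul_inv_cancel₀ hT) ΦY
    rw [← hα1] at k3
    have k5 : Form.pull ΦY hY.map α1 =
        Form.pull (scl T⁻¹ (scl T ΦY)) (map_scl T⁻¹ hYs.map) α1 :=
      Form.pull_congr _ _ k4.symm α1
    exact k5.trans k3
  have hα1o : α1.sg = -α1 := by
    rw [hα1, Form.sg_smul, ← Form.pull_sg, hαΛo, pull_neg, smul_neg]
  -- the connection pulled back from `X`
  set α2 : Form dY := Form.pull f hf αX with hα2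
  have hα2c : Form.pull ΦY hY.map α2 = pr α2 + dt := by
    have k2 := flow_nat hY.map hX.map hf (fun y t => hfe y t) αX
    rw [hα2, ← k2, hαX]
    refine (pull_add (map_cyl hf) _ _).trans ?_
    rw [pull_pr hf, pull_dt hf]
  have hα2o : α2.sg = -α2 := by
    rw [hα2, ← Form.pull_sg, hαXo, pull_neg]
  set β : Form dY := α2 - α1 with hβ
  have hβb : Basic ΦY hY.map β := basic_of_contact hα1c hα2c
  have hβo : β.sg = -β := by
    rw [hβ, Form.sg_sub, hα1o, hα2o]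
    abel
  -- the gauge
  obtain ⟨g1, g2, g3⟩ := pull_good hF hFe hFn hC1
  have e5 := tauG_d hY A0 C0 hα1c hα1o hβb hβo g2 hT g1 g3
  have e6 : α1 + β = α2 := by rw [hβ]; abel
  rw [e6] at e5
  have b5 := tauG_basic hY A0 C0 hα1c hα1o hβb hβo g2
  -- the homotopy
  have hC0 : dY.Map dM (fun y => CX (f y)) := Dif.Map.comp hCX hf
  obtain ⟨κ, k1, k2, k3⟩ := exists_hom hY A0 C0 hT hα2c hα2o hH hF hFe hFn hC0 hC1 H0
    (fun y => rfl)
  have e7 : Form.pull f hf (tau A0 C0 ΦX hX.map T αX (Form.pull CX hCX F)) =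
      tau A0 C0 ΦY hY.map T α2 (Form.pull (fun y => CX (f y)) hC0 F) := by
    rw [pull_tau (φ := ΦY) (φ' := ΦX) hY.map hX.map hf (fun y t => hfe y t) A0 C0 T αX _,
      pull_pull hf hCX hC0 (fun y => rfl) F]
  -- the form
  have b6 : Basic ΦY hY.map (Form.pull c hc lamΛ) := by
    rw [← basic_scl_iff hT]
    exact Basic.pull hYs.map hΛ.map hc (fun y t => hce y t) hlb
  refine ⟨Form.pull c hc lamΛ + tauG A0 C0 ΦY hY.map T α1 β
    (Form.pull (fun y => H (y, 1)) hC1 F) - κ, Basic.sub (Basic.add b6 b5) k1, ?_, ?_⟩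
  · rw [Form.d_sub, Form.d_add, ← Form.pull_d, hld, e4, e5, k2, e7]
    abel
  · have v1 : Van Z (Form.pull c hc lamΛ) := by
      refine S3L.Van.mono ?_ (S3L.Van.pull hlv hc)
      intro y hy t
      rw [← hce, ← H1, ← H1]
      exact hZ y hy (T * t) 1
    have v2 : Van Z (tauG A0 C0 ΦY hY.map T α1 β (Form.pull (fun y => H (y, 1)) hC1 F)) :=
      fun {E} _ _ _ {u x} hu hZu => van_tauG hY A0 C0 hC1 F α1 β hZi
        (fun y hy t => hZ y hy t 1) hu hZu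
    have v3 : Van Z κ := fun {E} _ _ _ {u x} hu hZu => k3 Z hZi hZ hu hZu
    intro E _ _ _ u x hu hZu
    rw [Form.sub_val, Form.add_val, v1 hu hZu, v2 hu hZu, v3 hu hZu, add_zero, sub_zero]

include hX hαX hαXo hY hfe hΛ hαΛ hαΛo hc hce hH H0 H1 hF hFe hFn hlb hld hlv hZi hZ in
/-- **S3-MU, abstract form, with degrees** -/
theorem exists_mu28 (hT : T ≠ 0) (hα1 : IsDeg 1 αX) (hF8 : IsDeg 8 F) :
    ∃ μ : Form dY, Basic ΦY hY.map μ ∧ μ.sg = μ ∧ IsDeg 28 μ ∧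
      μ.d = Form.pull f hf (tau A0 C0 ΦX hX.map T αX (Form.pull CX hCX F)) ∧ Van Z μ := by
  obtain ⟨μ, h1, h2, h3⟩ := exists_mu hX hαX hαXo hCX hY hf hfe hΛ hαΛ hαΛo hCΛ hc hce hH H0 H1 hF
    hFe hFn hlb hld hlv hZi hZ hT
  refine ⟨part 28 μ, basic_part 28 h1, (isDeg_part 28 μ).sg_of_even (by decide),
    isDeg_part 28 μ, ?_, Van.part h3 28⟩
  rw [← part_succ_d, h2]
  exact IsDeg.pull (deg_tau hX.map A0 C0 T hα1 (IsDeg.pull hF8 CX hCX)) f hf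

end Main

end Vale.Agent.P231.S3MU
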