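import Vale.Agent.P231.S3MU.Abs
import Vale.Agent.P231.S3B4.T2

/-!
# P231, stage 3, S3-MU: the explicit primitive, and its relation with `t₂`
-/

set_option linter.unusedSectionVars false
set_option linter.unusedVariables false

open Set Module Filter Topology
open scoped ContDiff

namespace Vale.Agent.P231.S3MU

open Fm W H584 S3L S3B4
open Fm.Form (IsDeg part isDeg_part part_add part_smul part_succ_d part_pull)

/-- **the primitive** -/
noncomputable def mu0 {Y : Type*} {dY : Dif Y} (A0 C0 : ℝ) (Φ : Y × ℝ → Y)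
    (hΦ : (dY.prod (Dif.lin ℝ)).Map dY Φ) (T : ℝ) (l a1 a2 G1 : Form dY)
    (GH : Form (dY.prod (Dif.lin ℝ))) : Form dY :=
  l + tauG A0 C0 Φ hΦ T a1 (a2 - a1) G1 -
    Form.K (tau A0 C0 (cflow Φ) (map_cflow hΦ) T (pr a2) GH)

theorem mu0_def {Y : Type*} {dY : Dif Y} (A0 C0 : ℝ) (Φ : Y × ℝ → Y)
    (hΦ : (dY.prod (Dif.lin ℝ)).Map dY Φ) (T : ℝ) (l a1 a2 G1 : Form dY)
    (GH : Form (dY.prod (Dif.lin ℝ))) : mu0 A0 C0 Φ hΦ T l a1 a2 G1 GH =
  l + tauG A0 C0 Φ hΦ T a1 (a2 - a1) G1 -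
    Form.K (tau A0 C0 (cflow Φ) (map_cflow hΦ) T (pr a2) GH) := rfl

section Gg

variable {Y : Type*} {dY : Dif Y} {T : ℝ} {Φ : Y × ℝ → Y} (h : IsFlow dY T Φ) (A0 C0 : ℝ)

theorem gg_scl {c T' : ℝ} (hc : c ≠ 0) (hcT : c * T' = T)
    (hΦ : (dY.prod (Dif.lin ℝ)).Map dY Φ) (α G : Form dY) :
    gg A0 C0 (scl c Φ) (map_scl c hΦ) T' (c⁻¹ • α) G = gg A0 C0 Φ hΦ T α G := by
  have h1 : T'⁻¹ • (c⁻¹ • α).d = T⁻¹ • α.d := by
    rw [Form.d_smul, inv_scl hc hcT]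
  rw [gg_def, gg_def, Gh_scl hc hcT, xp_scl hcT, h1, inv_scl hc hcT]

theorem at_gg (s : ℝ) (α G : Form (dY.prod (Dif.lin ℝ))) :
    at_ s (gg A0 C0 (cflow Φ) (map_cflow h.map) T α G) =
      gg A0 C0 Φ h.map T (at_ s α) (at_ s G) :=
  pull_gg h.map (map_cflow h.map) (Form.map_slice s) (fun x t => rfl) A0 C0 T α G

theorem K_dgg (α G : Form (dY.prod (Dif.lin ℝ))) :
    Form.K (gg A0 C0 (cflow Φ) (map_cflow h.map) T α G).d =
      gg A0 C0 Φ h.map T (at_ 1 α) (at_ 1 G) - gg A0 C0 Φ h.map T (at_ 0 α) (at_ 0 G) -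
        (Form.K (gg A0 C0 (cflow Φ) (map_cflow h.map) T α G)).d := by
  have h1 := homotopy' (gg A0 C0 (cflow Φ) (map_cflow h.map) T α G)
  rw [at_gg h, at_gg h] at h1
  rw [h1]
  abel

variable {a1 a2 : Form dY} (h1 : Form.pull Φ h.map a1 = pr a1 + dt) (h1o : a1.sg = -a1)
  (h2 : Form.pull Φ h.map a2 = pr a2 + dt) (h2o : a2.sg = -a2)
  {G1 G0 : Form dY} {GH : Form (dY.prod (Dif.lin ℝ))} (hGd : GH.d = 0) (hGe : GH.sg = GH)
  (hG1 : at_ 1 GH = G1) (hG0 : at_ 0 GH = G0)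

include h1 h1o h2 h2o in
/-- the transgression between two connections -/
theorem tauG_eq (hT : T ≠ 0) (hd : G1.d = 0) (he : G1.sg = G1) :
    tauG A0 C0 Φ h.map T a1 (a2 - a1) G1 =
      gg A0 C0 Φ h.map T a2 G1 - gg A0 C0 Φ h.map T a1 G1 -
        (Form.K (gg A0 C0 (cflow Φ) (map_cflow h.map) T (als a1 (a2 - a1)) (pr G1))).d := by
  have hβ : Basic Φ h.map (a2 - a1) := basic_of_contact h1 h2
  have hβo : (a2 - a1).sg = -(a2 - a1) := by
    rw [Form.sg_sub, h1o, h2o]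
    abel
  have e1 := tau_gg (isFlow_cflow h) A0 C0 hT (als_contact h h1 hβ) (als_odd h1o hβo)
    (G := pr G1) (by rw [← pr_sg, he]) (by rw [← pr_d, hd, pr_zero])
  have e2 : t2 2 (cflow Φ) (isFlow_cflow h).map T (pr G1) = pr (t2 2 Φ h.map T G1) :=
    (pull_t2 (φ := cflow Φ) (φ' := Φ) (map_cflow h.map) h.map Dif.map_fst (fun x t => rfl) 2 T
      G1).symm
  have e3 : Form.K (pr (t2 2 Φ h.map T G1) +
      (gg A0 C0 (cflow Φ) (isFlow_cflow h).map T (als a1 (a2 - a1)) (pr G1)).d) =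
      Form.K (gg A0 C0 (cflow Φ) (isFlow_cflow h).map T (als a1 (a2 - a1)) (pr G1)).d := by
    rw [Form.K_add, K_pr, zero_add]
  rw [tauG_def, e1, e2, e3, K_dgg h, at_als_zero, at_als_one, at_pr, at_pr, add_sub_cancel]

include h1 h1o h2 h2o hGd hGe hG1 hG0 in
/-- **the primitive and `t₂`** -/
theorem mu0_t2 (hT : T ≠ 0) (l : Form dY) :
    mu0 A0 C0 Φ h.map T l a1 a2 G1 GH =
      (l - gg A0 C0 Φ h.map T a1 G1) - Form.K (t2 2 (cflow Φ) (map_cflow h.map) T GH) +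
        gg A0 C0 Φ h.map T a2 G0 +
        (Form.K (gg A0 C0 (cflow Φ) (map_cflow h.map) T (pr a2) GH) -
          Form.K (gg A0 C0 (cflow Φ) (map_cflow h.map) T (als a1 (a2 - a1)) (pr G1))).d := by
  have hd : G1.d = 0 := by rw [← hG1, at_, ← Form.pull_d, hGd, H584.pull_zero]
  have he : G1.sg = G1 := by rw [← hG1, at_, ← Form.pull_sg, hGe]
  have e1 := tau_gg (isFlow_cflow h) A0 C0 hT (cflow_contact h h2) (pr_odd h2o) hGe hGd
  have e2 : Form.K (tau A0 C0 (cflow Φ) (map_cflow h.map) T (pr a2) GH) =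
      Form.K (t2 2 (cflow Φ) (map_cflow h.map) T GH) +
        (gg A0 C0 Φ h.map T a2 G1 - gg A0 C0 Φ h.map T a2 G0 -
        (Form.K (gg A0 C0 (cflow Φ) (map_cflow h.map) T (pr a2) GH)).d) := by
    have e3 := K_dgg h A0 C0 (pr a2) GH
    rw [at_pr, at_pr, hG1, hG0] at e3
    rw [← e3, ← Form.K_add]
    exact congrArg Form.K e1
  rw [mu0_def, tauG_eq h A0 C0 h1 h1o h2 h2o hT hd he, e2, Form.d_sub]
  abel

end Gg

section Main

variable {X Y Λ M : Type*} {dX : Dif X} {dY : Dif Y} {dΛ : Dif Λ} {dM : Dif M} {T : ℝ}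
  {ΦX : X × ℝ → X} (hX : IsFlow dX T ΦX) {αX : Form dX}
  (hαX : Form.pull ΦX hX.map αX = pr αX + dt) (hαXo : αX.sg = -αX)
  {CX : X → M} (hCX : dX.Map dM CX)
  {ΦY : Y × ℝ → Y} (hY : IsFlow dY T ΦY) {f : Y → X} (hf : dY.Map dX f)
  (hfe : ∀ y t, f (ΦY (y, t)) = ΦX (f y, t))
  {ΦΛ : Λ × ℝ → Λ} (hΛ : IsFlow dΛ 1 ΦΛ) {αΛ : Form dΛ}
  (hαΛ : Form.pull ΦΛ hΛ.map αΛ = pr αΛ + dt) (hαΛo : αΛ.sg = -αΛ)
  {CΛ : Λ → M} (hCΛ : dΛ.Map dM CΛ) {c : Y → Λ} (hc : dY.Map dΛ c)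
  (hce : ∀ y t, c (ΦY (y, T * t)) = ΦΛ (c y, t))
  {H : Y × ℝ → M} (hH : (dY.prod (Dif.lin ℝ)).Map dM H)
  (H0 : ∀ y, H (y, 0) = CX (f y)) (H1 : ∀ y, H (y, 1) = CΛ (c y))
  {F : Form dM} (hF : F.d = 0) (hFe : F.sg = F) (hFn : F ^ (2 + 1) = 0) {A0 C0 : ℝ}
  {lamΛ : Form dΛ} (hlb : Basic ΦΛ hΛ.map lamΛ)
  (hld : lamΛ.d = tau A0 C0 ΦΛ hΛ.map 1 αΛ (Form.pull CΛ hCΛ F))
  (hlv : Van {b | ∀ t, CΛ (ΦΛ (b, t)) = CΛ b} lamΛ)
  {Z : Set Y} (hZi : ∀ y ∈ Z, ∀ t, ΦY (y, t) ∈ Z)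
  (hZ : ∀ y ∈ Z, ∀ t s, H (ΦY (y, t), s) = H (y, s))

/-- **the explicit primitive**: `l = c^* λ`, connections `T c^* α_Λ` and `f^* α_X` -/
noncomputable def muF (A0 C0 : ℝ) (hY : IsFlow dY T ΦY) (hc : dY.Map dΛ c) (lamΛ αΛ : Form dΛ)
    (hf : dY.Map dX f) (αX : Form dX) (hH : (dY.prod (Dif.lin ℝ)).Map dM H) (F : Form dM) :
    Form dY :=
  mu0 A0 C0 ΦY hY.map T (Form.pull c hc lamΛ) (T • Form.pull c hc αΛ) (Form.pull f hf αX)
    (Form.pull (fun y => H (y, 1)) (map_at hH 1) F) (Form.pull H hH F)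

theorem muF_def (A0 C0 : ℝ) (hY : IsFlow dY T ΦY) (hc : dY.Map dΛ c) (lamΛ αΛ : Form dΛ)
    (hf : dY.Map dX f) (αX : Form dX) (hH : (dY.prod (Dif.lin ℝ)).Map dM H) (F : Form dM) :
    muF A0 C0 hY hc lamΛ αΛ hf αX hH F =
  mu0 A0 C0 ΦY hY.map T (Form.pull c hc lamΛ) (T • Form.pull c hc αΛ) (Form.pull f hf αX)
    (Form.pull (fun y => H (y, 1)) (map_at hH 1) F) (Form.pull H hH F) := rfl

include hΛ hαΛ hce in
/-- the pull back of the universal connection -/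
theorem con_c (hT : T ≠ 0) : Form.pull ΦY hY.map (T • Form.pull c hc αΛ) =
    pr (T • Form.pull c hc αΛ) + dt := by
  have hcT : T * 1 = T := mul_one T
  have hYs : IsFlow dY 1 (scl T ΦY) := isFlow_scl hY hcT
  have k1 : Form.pull (scl T ΦY) hYs.map (Form.pull c hc αΛ) =
      pr (Form.pull c hc αΛ) + dt := by
    have k2 := flow_nat hYs.map hΛ.map hc (fun y t => hce y t) αΛ
    rw [← k2, hαΛ]
    refine (pull_add (map_cyl hc) _ _).trans ?_
    rw [pull_pr hc, pull_dt hc]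
  have k3 := contact_scl (c := T⁻¹) (inv_ne_zero hT) hYs.map k1
  rw [_root_.inv_inv] at k3
  have k4 : scl T⁻¹ (scl T ΦY) = ΦY := scl_scl (mul_inv_cancel₀ hT) ΦY
  have k5 : Form.pull ΦY hY.map (T • Form.pull c hc αΛ) =
      Form.pull (scl T⁻¹ (scl T ΦY)) (map_scl T⁻¹ hYs.map) (T • Form.pull c hc αΛ) :=
    Form.pull_congr _ _ k4.symm _
  exact k5.trans k3

include hαΛo in
theorem con_co : (T • Form.pull c hc αΛ).sg = -(T • Form.pull c hc αΛ) := by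
  rw [Form.sg_smul, ← Form.pull_sg, hαΛo, pull_neg, smul_neg]

include hX hαX hfe in
theorem con_f : Form.pull ΦY hY.map (Form.pull f hf αX) = pr (Form.pull f hf αX) + dt := by
  have k2 := flow_nat hY.map hX.map hf (fun y t => hfe y t) αX
  rw [← k2, hαX]
  refine (pull_add (map_cyl hf) _ _).trans ?_
  rw [pull_pr hf, pull_dt hf]

include hαXo in
theorem con_fo : (Form.pull f hf αX).sg = -(Form.pull f hf αX) := by
  rw [← Form.pull_sg, hαXo, pull_neg]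

include hX hαX hαXo hfe hΛ hαΛ hαΛo hce hlb hF hFe in
/-- the primitive is basic -/
theorem muF_basic (hT : T ≠ 0) :
    Basic ΦY hY.map (muF A0 C0 hY hc lamΛ αΛ hf αX hH F) := by
  have hcT : T * 1 = T := mul_one T
  have hYs : IsFlow dY 1 (scl T ΦY) := isFlow_scl hY hcT
  have c1 := con_c hY hΛ hαΛ hc hce hT
  have c2 := con_f hX hαX hY hf hfe
  have o1 := con_co (T := T) hαΛo hc
  have o2 := con_fo hαXo hf
  have hβb := basic_of_contact (hΦ := hY.map) c1 c2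
  have hβo : (Form.pull f hf αX - T • Form.pull c hc αΛ).sg =
      -(Form.pull f hf αX - T • Form.pull c hc αΛ) := by
    rw [Form.sg_sub, o1, o2]
    abel
  have g2 : (Form.pull (fun y => H (y, 1)) (map_at hH 1) F).sg =
      Form.pull (fun y => H (y, 1)) (map_at hH 1) F := by rw [← Form.pull_sg, hFe]
  have g3 : (Form.pull H hH F).sg = Form.pull H hH F := by rw [← Form.pull_sg, hFe]
  have b5 := tauG_basic hY A0 C0 c1 o1 hβb hβo g2
  have b6 : Basic ΦY hY.map (Form.pull c hc lamΛ) := by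
    rw [← basic_scl_iff hT]
    exact Basic.pull hYs.map hΛ.map hc (fun y t => hce y t) hlb
  have b7 : Basic ΦY hY.map (Form.K (tau A0 C0 (cflow ΦY) (map_cflow hY.map) T
      (pr (Form.pull f hf αX)) (Form.pull H hH F))) :=
    basic_K (tau_basic (isFlow_cflow hY) A0 C0 (cflow_contact hY c2) (pr_odd o2) g3)
  exact Basic.sub (Basic.add b6 b5) b7

include hX hαX hαXo hfe hΛ hαΛ hαΛo hce H0 H1 hld hF hFe hFn in
/-- the differential of the primitive -/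
theorem muF_d (hT : T ≠ 0) :
    (muF A0 C0 hY hc lamΛ αΛ hf αX hH F).d =
      Form.pull f hf (tau A0 C0 ΦX hX.map T αX (Form.pull CX hCX F)) := by
  have hcT : T * 1 = T := mul_one T
  have hYs : IsFlow dY 1 (scl T ΦY) := isFlow_scl hY hcT
  have c1 := con_c hY hΛ hαΛ hc hce hT
  have c2 := con_f hX hαX hY hf hfe
  have o1 := con_co (T := T) hαΛo hc
  have o2 := con_fo hαXo hf
  have hβb := basic_of_contact (hΦ := hY.map) c1 c2
  have hβo : (Form.pull f hf αX - T • Form.pull c hc αΛ).sg =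
      -(Form.pull f hf αX - T • Form.pull c hc αΛ) := by
    rw [Form.sg_sub, o1, o2]
    abel
  have hC1 : dY.Map dM (fun y => H (y, 1)) := map_at hH 1
  obtain ⟨g1, g2, g3⟩ := pull_good hF hFe hFn hC1
  obtain ⟨q1, q2, q3⟩ := pull_good hF hFe hFn hH
  have e5 := tauG_d hY A0 C0 c1 o1 hβb hβo g2 hT g1 g3
  rw [add_sub_cancel] at e5
  have e1 : Form.pull c hc (tau A0 C0 ΦΛ hΛ.map 1 αΛ (Form.pull CΛ hCΛ F)) =
      tau A0 C0 (scl T ΦY) hYs.map 1 (Form.pull c hc αΛ)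
        (Form.pull c hc (Form.pull CΛ hCΛ F)) :=
    pull_tau (φ := scl T ΦY) (φ' := ΦΛ) hYs.map hΛ.map hc (fun y t => hce y t) A0 C0 1 αΛ
      (Form.pull CΛ hCΛ F)
  have e2 : Form.pull c hc αΛ = T⁻¹ • (T • Form.pull c hc αΛ) := by
    rw [smul_smul, inv_mul_cancel₀ hT, one_smul]
  have e3 : Form.pull c hc (Form.pull CΛ hCΛ F) = Form.pull (fun y => H (y, 1)) hC1 F :=
    pull_pull hc hCΛ hC1 (fun y => (H1 y).symm) F
  have e4 : Form.pull c hc (tau A0 C0 ΦΛ hΛ.map 1 αΛ (Form.pull CΛ hCΛ F)) =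
      tau A0 C0 ΦY hY.map T (T • Form.pull c hc αΛ) (Form.pull (fun y => H (y, 1)) hC1 F) := by
    rw [e1, e3, e2]
    refine (tau_scl hT hcT hY.map A0 C0 (T • Form.pull c hc αΛ) _).trans ?_
    congr 1
    exact (congrArg (fun z => T • z) e2)
  obtain ⟨k1, k2⟩ := tau_homotopy hY A0 C0 hT c2 o2 q2 q1 q3
  have e0 : at_ 0 (Form.pull H hH F) = Form.pull f hf (Form.pull CX hCX F) := by
    have hC0 : dY.Map dM (fun y => CX (f y)) := Dif.Map.comp hCX hf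
    have j1 : at_ 0 (Form.pull H hH F) = Form.pull (fun y => CX (f y)) hC0 F :=
      (at_pull_of hH 0 F).trans (Form.pull_congr _ _ (funext H0) F)
    rw [j1]
    exact (pull_pull hf hCX hC0 (fun y => rfl) F).symm
  have e6 : at_ 1 (Form.pull H hH F) = Form.pull (fun y => H (y, 1)) hC1 F :=
    at_pull_of hH 1 F
  rw [e0, e6] at k2
  have e7 : Form.pull f hf (tau A0 C0 ΦX hX.map T αX (Form.pull CX hCX F)) =
      tau A0 C0 ΦY hY.map T (Form.pull f hf αX) (Form.pull f hf (Form.pull CX hCX F)) :=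
    pull_tau (φ := ΦY) (φ' := ΦX) hY.map hX.map hf (fun y t => hfe y t) A0 C0 T αX _
  rw [muF_def, mu0_def, Form.d_sub, Form.d_add, ← Form.pull_d, hld, e4, e5, e7]
  rw [k2]
  abel

include hlv hce H1 hZi hZ in
/-- the primitive vanishes on the constant loops -/
theorem muF_van : Van Z (muF A0 C0 hY hc lamΛ αΛ hf αX hH F) := by
  have v1 : Van Z (Form.pull c hc lamΛ) := by
    refine S3L.Van.mono ?_ (S3L.Van.pull hlv hc)
    intro y hy t
    rw [← hce, ← H1, ← H1]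
    exact hZ y hy (T * t) 1
  have v2 : Van Z (tauG A0 C0 ΦY hY.map T (T • Form.pull c hc αΛ)
      (Form.pull f hf αX - T • Form.pull c hc αΛ)
      (Form.pull (fun y => H (y, 1)) (map_at hH 1) F)) :=
    fun {E} _ _ _ {u x} hu hZu => van_tauG hY A0 C0 (map_at hH 1) F _ _ hZi
      (fun y hy t => hZ y hy t 1) hu hZu
  have v3 : Van Z (Form.K (tau A0 C0 (cflow ΦY) (map_cflow hY.map) T
      (pr (Form.pull f hf αX)) (Form.pull H hH F))) :=
    fun {E} _ _ _ {u x} hu hZu =>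
      S3L.Van.K (fun {E'} _ _ _ {u' x'} hu' hZu' =>
        van_tau (isFlow_cflow hY) A0 C0 hH F (Z := Z ×ˢ (Set.univ : Set ℝ))
      (fun p hp t => ⟨hZi _ hp.1 t, mem_univ _⟩) (fun p hp t => hZ _ hp.1 t p.2) hu' hZu') hu hZu
  intro E _ _ _ u x hu hZu
  rw [muF_def, mu0_def, Form.sub_val, Form.add_val, v1 hu hZu, v2 hu hZu, v3 hu hZu, add_zero,
    sub_zero]

/-- the primitive has degree 28 -/
theorem muF_deg (hα1 : IsDeg 1 αX) (hαΛ1 : IsDeg 1 αΛ) (hF8 : IsDeg 8 F)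
    (hl : IsDeg 28 lamΛ) : IsDeg 28 (muF A0 C0 hY hc lamΛ αΛ hf αX hH F) := by
  have d1 : IsDeg 1 (Form.pull f hf αX) := IsDeg.pull hα1 _ _
  have d2 : IsDeg 1 (T • Form.pull c hc αΛ) := IsDeg.smul _ (IsDeg.pull hαΛ1 _ _)
  have d3 : IsDeg 1 (als (T • Form.pull c hc αΛ) (Form.pull f hf αX - T • Form.pull c hc αΛ)) := by
    rw [als]
    refine IsDeg.add (IsDeg.pull d2 Prod.fst Dif.map_fst) ?_
    exact Co.degc (IsDeg.mul (j := 0) (Form.isDeg_fn Prod.snd Dif.map_snd)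
      (IsDeg.pull (IsDeg.sub d1 d2) Prod.fst Dif.map_fst)) rfl
  rw [muF_def, mu0_def]
  refine IsDeg.sub (IsDeg.add (IsDeg.pull hl _ _) ?_) ?_
  · rw [tauG_def]
    exact IsDeg.K (deg_tau (map_cflow hY.map) _ _ _ d3
      (IsDeg.pull (IsDeg.pull hF8 _ (map_at hH 1)) Prod.fst Dif.map_fst))
  · exact IsDeg.K (deg_tau (map_cflow hY.map) _ _ _ (IsDeg.pull d1 Prod.fst Dif.map_fst)
      (IsDeg.pull hF8 H hH))

include hX hαX hαXo hfe hΛ hαΛ hαΛo hce H0 H1 hF hFe hFn hZi hZ in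
/-- **the primitive and `t₂`** -/
theorem muF_t2 (hT : T ≠ 0) : ∃ m : Form dY, Van Z m ∧
    muF A0 C0 hY hc lamΛ αΛ hf αX hH F =
      Form.pull c hc (lamΛ - gg A0 C0 ΦΛ hΛ.map 1 αΛ (Form.pull CΛ hCΛ F)) -
        Form.K (t2 2 (cflow ΦY) (map_cflow hY.map) T (Form.pull H hH F)) +
        Form.pull f hf (gg A0 C0 ΦX hX.map T αX (Form.pull CX hCX F)) + m.d := by
  have hcT : T * 1 = T := mul_one T
  have hYs : IsFlow dY 1 (scl T ΦY) := isFlow_scl hY hcT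
  have c1 := con_c hY hΛ hαΛ hc hce hT
  have c2 := con_f hX hαX hY hf hfe
  have o1 := con_co (T := T) hαΛo hc
  have o2 := con_fo hαXo hf
  have hC1 : dY.Map dM (fun y => H (y, 1)) := map_at hH 1
  obtain ⟨q1, q2, q3⟩ := pull_good hF hFe hFn hH
  have e0 : at_ 0 (Form.pull H hH F) = Form.pull f hf (Form.pull CX hCX F) := by
    have hC0 : dY.Map dM (fun y => CX (f y)) := Dif.Map.comp hCX hf
    have j1 : at_ 0 (Form.pull H hH F) = Form.pull (fun y => CX (f y)) hC0 F :=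
      (at_pull_of hH 0 F).trans (Form.pull_congr _ _ (funext H0) F)
    rw [j1]
    exact (pull_pull hf hCX hC0 (fun y => rfl) F).symm
  have e6 : at_ 1 (Form.pull H hH F) = Form.pull (fun y => H (y, 1)) hC1 F :=
    at_pull_of hH 1 F
  have e1 := mu0_t2 hY A0 C0 c1 o1 c2 o2 q1 q2 e6 e0 hT (Form.pull c hc lamΛ)
  have e2 : Form.pull c hc (gg A0 C0 ΦΛ hΛ.map 1 αΛ (Form.pull CΛ hCΛ F)) =
      gg A0 C0 ΦY hY.map T (T • Form.pull c hc αΛ) (Form.pull (fun y => H (y, 1)) hC1 F) := by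
    have j1 := pull_gg hYs.map hΛ.map hc (fun y t => hce y t) A0 C0 1 αΛ (Form.pull CΛ hCΛ F)
    have j2 : Form.pull c hc (Form.pull CΛ hCΛ F) = Form.pull (fun y => H (y, 1)) hC1 F :=
      pull_pull hc hCΛ hC1 (fun y => (H1 y).symm) F
    have j3 : T⁻¹ • (T • Form.pull c hc αΛ) = Form.pull c hc αΛ := by
      rw [smul_smul, inv_mul_cancel₀ hT, one_smul]
    have j4 := gg_scl A0 C0 hT hcT hY.map (T • Form.pull c hc αΛ)
      (Form.pull (fun y => H (y, 1)) hC1 F)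
    rw [j3] at j4
    rw [j1, j2, j4]
  have e3 : Form.pull f hf (gg A0 C0 ΦX hX.map T αX (Form.pull CX hCX F)) =
      gg A0 C0 ΦY hY.map T (Form.pull f hf αX) (Form.pull f hf (Form.pull CX hCX F)) :=
    pull_gg hY.map hX.map hf (fun y t => hfe y t) A0 C0 T αX _
  refine ⟨Form.K (gg A0 C0 (cflow ΦY) (map_cflow hY.map) T (pr (Form.pull f hf αX))
      (Form.pull H hH F)) -
    Form.K (gg A0 C0 (cflow ΦY) (map_cflow hY.map) T (als (T • Form.pull c hc αΛ)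
      (Form.pull f hf αX - T • Form.pull c hc αΛ))
      (pr (Form.pull (fun y => H (y, 1)) hC1 F))), ?_, ?_⟩
  rotate_left
  · rw [muF_def, H584.pull_sub, e2, e3]
    exact e1
  · have z1 : ∀ p ∈ Z ×ˢ (Set.univ : Set ℝ), ∀ t, cflow ΦY (p, t) ∈ Z ×ˢ (Set.univ : Set ℝ) :=
      fun p hp t => ⟨hZi _ hp.1 t, mem_univ _⟩
    have x1 : Van (Z ×ˢ (Set.univ : Set ℝ)) (xp (cflow ΦY) (isFlow_cflow hY).map T
        (Form.pull H hH F)) :=
      van_xp (isFlow_cflow hY) hH F z1 fun p hp t => hZ _ hp.1 t p.2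
    have hH1 : (dY.prod (Dif.lin ℝ)).Map dM (fun p : Y × ℝ => H (p.1, 1)) :=
      fun {E} _ _ _ {u x} hu => hC1 hu.1
    have x3 : pr (Form.pull (fun y => H (y, 1)) hC1 F) =
        Form.pull (fun p : Y × ℝ => H (p.1, 1)) hH1 F :=
      pull_pull Dif.map_fst hC1 hH1 (fun p => rfl) F
    have x2 : Van (Z ×ˢ (Set.univ : Set ℝ)) (xp (cflow ΦY) (isFlow_cflow hY).map T
        (pr (Form.pull (fun y => H (y, 1)) hC1 F))) := by
      rw [x3]
      exact van_xp (isFlow_cflow hY) hH1 F z1 fun p hp t => hZ _ hp.1 t 1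
    have y1 : Van Z (Form.K (gg A0 C0 (cflow ΦY) (map_cflow hY.map) T
        (pr (Form.pull f hf αX)) (Form.pull H hH F))) := fun {E} _ _ _ {u x} hu hZu =>
      S3L.Van.K (fun {E'} _ _ _ {u' x'} hu' hZu' => gg_van A0 C0 x1 hu' hZu') hu hZu
    have y2 : Van Z (Form.K (gg A0 C0 (cflow ΦY) (map_cflow hY.map) T
        (als (T • Form.pull c hc αΛ) (Form.pull f hf αX - T • Form.pull c hc αΛ))
        (pr (Form.pull (fun y => H (y, 1)) hC1 F)))) := fun {E} _ _ _ {u x} hu hZu =>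
      S3L.Van.K (fun {E'} _ _ _ {u' x'} hu' hZu' => gg_van A0 C0 x2 hu' hZu') hu hZu
    intro E _ _ _ u x hu hZu
    rw [Form.sub_val, y1 hu hZu, y2 hu hZu, sub_zero]

end Main

end Vale.Agent.P231.S3MU
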